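/-
helper64 — S0359 (row 232, Track D1) squad: DEFINITIONS.
Maths: notes/s0359/PROOF.md.  Leaves: Crest/Agent/Helper64/S0359/Blueprint.lean.
-/
import Mathlib

set_option autoImplicit false

namespace Crest.Agent.Helper64.S0359

/-- `q`-energy of a real function on a finite type: `∑ a, |f a| ^ q`
(the `q`-th power of the `ℓ_q` norm). -/
noncomputable def energy {ι : Type*} [Fintype ι] (q : ℝ) (f : ι → ℝ) : ℝ := ∑ a, |f a| ^ q

/-- Row (`c = false`) and column (`c = true`) indicators on the `k × k` grid. -/
def grid (k : ℕ) (c : Bool) (i : Fin k) : Fin k × Fin k → ℝ :=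
  fun ab => if (cond c ab.2 ab.1) = i then 1 else 0

/-- The `4k` special points `± row i`, `± column j`; the second `Bool` is the sign
(`true` = minus). -/
def special (k : ℕ) : Bool × Bool × Fin k → (Fin k × Fin k → ℝ) :=
  fun csi => cond csi.2.1 (-(grid k csi.1 csi.2.2)) (grid k csi.1 csi.2.2)

/-- Padding points: the constant functions `2 m` (`m = 0` is the origin). -/
def pad (k : ℕ) (m : ℕ) : Fin k × Fin k → ℝ := fun _ => 2 * (m : ℝ)

/-- The family of source points, indexed by `(Bool × Bool × Fin k) ⊕ Fin (r + 1)`. -/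
def fam (k r : ℕ) : (Bool × Bool × Fin k) ⊕ Fin (r + 1) → (Fin k × Fin k → ℝ) :=
  Sum.elim (special k) (fun m => pad k (m : ℕ))

end Crest.Agent.Helper64.S0359
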