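/-
helper64 — S0359 (row 232, Track D1) squad: BLUEPRINT.  Exact target statements of the leaves, all `sorry`.
THIS FILE IS NEVER IMPORTED by graded files.  A leaf owner copies the statement (same signature,
namespace `Crest.Agent.<Seat>.S0359`) into his own file `Crest/Agent/<Seat>/S0359/<Leaf>.lean`,
importing `Crest.Agent.Helper64.S0359.Defs`, and proves it.
Maths: notes/s0359/PROOF.md;  owners: table s0359_wp.
-/
import Crest.Agent.Helper64.S0359.Defs

set_option autoImplicit false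

open MeasureTheory
open scoped ENNReal

namespace Crest.Agent.Helper64.S0359.Blueprint

open Crest.Agent.Helper64.S0359

/-! ## Package A — scalar inequalities with equality cases -/

/-- A1: midpoint convexity of `|t|^q`. -/
theorem abs_sub_rpow_le (q : ℝ) (hq : 1 < q) (a b : ℝ) :
    |a - b| ^ q ≤ 2 ^ (q - 1) * (|a| ^ q + |b| ^ q) := sorry

/-- A2: equality case of A1 (strict convexity). -/
theorem eq_neg_of_abs_sub_rpow_eq (q : ℝ) (hq : 1 < q) (a b : ℝ)
    (h : |a - b| ^ q = 2 ^ (q - 1) * (|a| ^ q + |b| ^ q)) : b = -a := sorry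

/-- A3: two-point Clarkson inequality, `q > 2`. -/
theorem clarkson_gt_two (q : ℝ) (hq : 2 < q) (a b : ℝ) :
    2 * |a| ^ q + 2 * |b| ^ q ≤ |a + b| ^ q + |a - b| ^ q := sorry

/-- A4: equality case of A3. -/
theorem clarkson_gt_two_eq (q : ℝ) (hq : 2 < q) (a b : ℝ)
    (h : |a + b| ^ q + |a - b| ^ q = 2 * |a| ^ q + 2 * |b| ^ q) : a = 0 ∨ b = 0 := sorry

/-- A5: two-point Clarkson inequality, `1 < q < 2`. -/
theorem clarkson_lt_two (q : ℝ) (hq1 : 1 < q) (hq : q < 2) (a b : ℝ) :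
    |a + b| ^ q + |a - b| ^ q ≤ 2 * |a| ^ q + 2 * |b| ^ q := sorry

/-- A6: equality case of A5. -/
theorem clarkson_lt_two_eq (q : ℝ) (hq1 : 1 < q) (hq : q < 2) (a b : ℝ)
    (h : |a + b| ^ q + |a - b| ^ q = 2 * |a| ^ q + 2 * |b| ^ q) : a = 0 ∨ b = 0 := sorry

/-! ## Package B — energies of functions on a finite type -/

section B
variable {ι : Type*} [Fintype ι]

/-- B1 (reflection; from A1, A2). -/
theorem energy_reflect (q : ℝ) (hq : 1 < q) (a b : ι → ℝ) (c : ℝ)
    (ha : energy q a = c) (hb : energy q b = c) (hab : energy q (a - b) = 2 ^ q * c) :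
    b = -a := sorry

/-- B2 (disjoint supports; from A3–A6). -/
theorem disjoint_of_energy (q : ℝ) (hq1 : 1 < q) (hq2 : q ≠ 2) (a b : ι → ℝ)
    (h : energy q (a + b) + energy q (a - b) = 2 * energy q a + 2 * energy q b) :
    ∀ t, a t = 0 ∨ b t = 0 := sorry

/-- B3. -/
theorem energy_add_eq_sub (q : ℝ) (a b : ι → ℝ) (h : ∀ t, a t = 0 ∨ b t = 0) :
    energy q (a + b) = energy q (a - b) := sorry

/-- B4. -/
theorem energy_neg (q : ℝ) (f : ι → ℝ) : energy q (-f) = energy q f := sorry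

/-- B5. -/
theorem energy_sub_neg (q : ℝ) (f : ι → ℝ) : energy q (f - (-f)) = 2 ^ q * energy q f := sorry

/-- B6. -/
theorem energy_add_of_disjoint (q : ℝ) (hq : 0 < q) (f g : ι → ℝ)
    (h : ∀ t, f t = 0 ∨ g t = 0) : energy q (f + g) = energy q f + energy q g := sorry

/-- B7. -/
theorem energy_sub_lt_add (q : ℝ) (hq : 0 < q) (f g : ι → ℝ) (hf : ∀ t, 0 ≤ f t)
    (hg : ∀ t, 0 ≤ g t) (h : ∃ t, 0 < f t ∧ 0 < g t) :
    energy q (f - g) < energy q (f + g) := sorry

/-- B8. -/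
theorem eq_of_energy_sub_eq_zero (q : ℝ) (hq : 0 < q) (f g : ι → ℝ)
    (h : energy q (f - g) = 0) : f = g := sorry

end B

/-! ## Package C — the core: a scaled copy of the grid configuration needs `k ^ 2` coordinates -/

/-- C1 (from B1–B7 and a counting argument). -/
theorem core (q : ℝ) (hq1 : 1 < q) (hq2 : q ≠ 2) {ι : Type*} [Fintype ι] (k d : ℕ)
    (A B : Fin k → ι → ℝ)
    (hA : ∀ i i', i ≠ i' → ∀ a, A i a = 0 ∨ A i' a = 0)
    (hB : ∀ j j', j ≠ j' → ∀ a, B j a = 0 ∨ B j' a = 0)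
    (hA0 : ∀ i a, 0 ≤ A i a) (hB0 : ∀ j a, 0 ≤ B j a)
    (hAB : ∀ i j, ∃ a, 0 < A i a ∧ 0 < B j a)
    (σ : ℝ) (hσ : 0 < σ) {J : Type*} (F : J → ι → ℝ) (Y : J → Fin d → ℝ)
    (hY : ∀ j j', energy q (Y j - Y j') = σ * energy q (F j - F j'))
    (j0 : J) (jA jA' jB jB' : Fin k → J)
    (h0 : F j0 = 0) (hjA : ∀ i, F (jA i) = A i) (hjA' : ∀ i, F (jA' i) = -A i)
    (hjB : ∀ i, F (jB i) = B i) (hjB' : ∀ i, F (jB' i) = -B i) :
    k ^ 2 ≤ d := sorry

/-! ## Package D — `L^p` plumbing -/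

/-- D1: every function on a finite discrete space is in `L^p` of the counting measure. -/
theorem memLp_count {ι : Type*} [Fintype ι] [MeasurableSpace ι] [MeasurableSingletonClass ι]
    (p : ℝ≥0∞) (f : ι → ℝ) : MemLp f p (Measure.count : Measure ι) := sorry

/-- D2: the `L^p` norm for the counting measure on a finite type. -/
theorem norm_toLp_count_rpow {ι : Type*} [Fintype ι] [MeasurableSpace ι]
    [MeasurableSingletonClass ι] (p : ℝ≥0∞) (hp0 : p ≠ 0) (hp : p ≠ ⊤) (f : ι → ℝ)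
    (hf : MemLp f p (Measure.count : Measure ι)) :
    ‖hf.toLp f‖ ^ p.toReal = energy p.toReal f := sorry

/-- D3: the norm of `ℓ_p^d`. -/
theorem norm_piLp_sub_rpow (p : ℝ≥0∞) (hp0 : p ≠ 0) (hp : p ≠ ⊤) (d : ℕ)
    (y y' : PiLp p (fun _ : Fin d => ℝ)) :
    ‖y - y'‖ ^ p.toReal = energy p.toReal (fun t => y t - y' t) := sorry

/-! ## Package E — the grid family -/

/-- E1. -/
theorem grid_disjoint (k : ℕ) (c : Bool) (i i' : Fin k) (h : i ≠ i') (a : Fin k × Fin k) :
    grid k c i a = 0 ∨ grid k c i' a = 0 := sorry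

/-- E2. -/
theorem grid_nonneg (k : ℕ) (c : Bool) (i : Fin k) (a : Fin k × Fin k) : 0 ≤ grid k c i a := sorry

/-- E3. -/
theorem grid_meet (k : ℕ) (i j : Fin k) :
    ∃ a, 0 < grid k false i a ∧ 0 < grid k true j a := sorry

/-- E4: the source points are pairwise distinct. -/
theorem fam_injective (k r : ℕ) (hk : 2 ≤ k) : Function.Injective (fam k r) := sorry

end Crest.Agent.Helper64.S0359.Blueprint
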