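/-
helper64 — S0359 squad: spare for packages A1, A2, B1 (midpoint convexity of `|t|^q` with its equality
case, and the reflection lemma for energies).
-/
import Crest.Agent.Helper64.S0359.Defs

set_option autoImplicit false

namespace Crest.Agent.Helper64.S0359

private lemma half_key (q : ℝ) (hq : 1 < q) (x y : ℝ) (hx : 0 ≤ x) (hy : 0 ≤ y) :
    (x + y) ^ q ≤ 2 ^ (q - 1) * (x ^ q + y ^ q) ∧
      ((x + y) ^ q = 2 ^ (q - 1) * (x ^ q + y ^ q) → x = y) := by
  have h2 : (2 : ℝ) ^ q = 2 * 2 ^ (q - 1) := by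
    rw [Real.rpow_sub_one (by norm_num : (2 : ℝ) ≠ 0)]
    ring
  have hsplit : (x + y) ^ q = 2 ^ q * ((1 / 2 : ℝ) * x + (1 / 2) * y) ^ q := by
    rw [← Real.mul_rpow (by norm_num) (by positivity)]
    congr 1
    ring
  have h2pos : (0 : ℝ) < 2 ^ (q - 1) := Real.rpow_pos_of_pos (by norm_num) _
  by_cases hxy : x = y
  · subst hxy
    refine ⟨le_of_eq ?_, fun _ => rfl⟩
    rw [hsplit, h2]
    have : (1 / 2 : ℝ) * x + (1 / 2) * x = x := by ring
    rw [this]
    ring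
  · have hlt := (strictConvexOn_rpow hq).2 (Set.mem_Ici.2 hx) (Set.mem_Ici.2 hy) hxy
      (by norm_num : (0 : ℝ) < 1 / 2) (by norm_num : (0 : ℝ) < 1 / 2) (by norm_num)
    simp only [smul_eq_mul] at hlt
    have hstrict : (x + y) ^ q < 2 ^ (q - 1) * (x ^ q + y ^ q) := by
      rw [hsplit, h2]
      calc 2 * 2 ^ (q - 1) * ((1 / 2 : ℝ) * x + (1 / 2) * y) ^ q
          < 2 * 2 ^ (q - 1) * ((1 / 2) * x ^ q + (1 / 2) * y ^ q) :=
            mul_lt_mul_of_pos_left hlt (by positivity)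
        _ = 2 ^ (q - 1) * (x ^ q + y ^ q) := by ring
    exact ⟨hstrict.le, fun h => absurd h hstrict.ne⟩

private lemma abs_sub_le_add (a b : ℝ) : |a - b| ≤ |a| + |b| := by
  have h := abs_add_le a (-b)
  rwa [abs_neg, ← sub_eq_add_neg] at h

/-- A1: midpoint convexity of `|t|^q`. -/
theorem abs_sub_rpow_le (q : ℝ) (hq : 1 < q) (a b : ℝ) :
    |a - b| ^ q ≤ 2 ^ (q - 1) * (|a| ^ q + |b| ^ q) :=
  (Real.rpow_le_rpow (abs_nonneg _) (abs_sub_le_add a b) (by linarith)).trans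
    (half_key q hq |a| |b| (abs_nonneg a) (abs_nonneg b)).1

/-- A2: equality case of A1 (strict convexity). -/
theorem eq_neg_of_abs_sub_rpow_eq (q : ℝ) (hq : 1 < q) (a b : ℝ)
    (h : |a - b| ^ q = 2 ^ (q - 1) * (|a| ^ q + |b| ^ q)) : b = -a := by
  have hq0 : 0 < q := by linarith
  have h1 : |a - b| ^ q ≤ (|a| + |b|) ^ q :=
    Real.rpow_le_rpow (abs_nonneg _) (abs_sub_le_add a b) hq0.le
  have h2 := half_key q hq |a| |b| (abs_nonneg a) (abs_nonneg b)
  have h3 : (|a| + |b|) ^ q = 2 ^ (q - 1) * (|a| ^ q + |b| ^ q) :=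
    le_antisymm h2.1 (h ▸ h1)
  have habs : |a| = |b| := h2.2 h3
  have hsum : |a - b| = |a| + |b| := by
    rcases (abs_sub_le_add a b).lt_or_eq with hlt | heq
    · have := Real.rpow_lt_rpow (abs_nonneg _) hlt hq0
      rw [h, h3] at this
      exact absurd this (lt_irrefl _)
    · exact heq
  rcases abs_eq_abs.1 habs with hab | hab
  · subst hab
    rw [sub_self, abs_zero] at hsum
    have : |a| = 0 := by linarith
    have ha : a = 0 := abs_eq_zero.1 this
    rw [ha, neg_zero]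
  · rw [hab, neg_neg]

/-- B1 (reflection). -/
theorem energy_reflect {ι : Type*} [Fintype ι] (q : ℝ) (hq : 1 < q) (a b : ι → ℝ) (c : ℝ)
    (ha : energy q a = c) (hb : energy q b = c) (hab : energy q (a - b) = 2 ^ q * c) :
    b = -a := by
  have h2 : (2 : ℝ) ^ q = 2 * 2 ^ (q - 1) := by
    rw [Real.rpow_sub_one (by norm_num : (2 : ℝ) ≠ 0)]
    ring
  have e1 : ∑ t, |a t| ^ q = c := ha
  have e2 : ∑ t, |b t| ^ q = c := hb
  have e3 : ∑ t, |a t - b t| ^ q = 2 ^ q * c := hab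
  have hsum : ∑ t, (2 ^ (q - 1) * (|a t| ^ q + |b t| ^ q) - |a t - b t| ^ q) = 0 := by
    rw [Finset.sum_sub_distrib, ← Finset.mul_sum, Finset.sum_add_distrib, e1, e2, e3, h2]
    ring
  have hz := (Finset.sum_eq_zero_iff_of_nonneg
    (fun t _ => sub_nonneg.2 (abs_sub_rpow_le q hq (a t) (b t)))).1 hsum
  funext t
  have ht := hz t (Finset.mem_univ t)
  exact eq_neg_of_abs_sub_rpow_eq q hq (a t) (b t) (by linarith)

end Crest.Agent.Helper64.S0359
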