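/-
helper64 — S0359 squad: package C (core), on top of helper62's energy leaves (B2–B8) and the spare
reflection lemma (B1) of `Crest/Agent/Helper64/S0359/Reflect.lean`.
-/
import Crest.Agent.Helper64.S0359.Reflect
import Crest.Agent.Helper62.S0359.Energy

set_option autoImplicit false

namespace Crest.Agent.Helper64.S0359
open Crest.Agent.Helper62.S0359

/-- C1: a scaled copy of the grid configuration needs `k ^ 2` coordinates. -/
theorem core (q : ℝ) (hq1 : 1 < q) (hq2 : q ≠ 2) {ι : Type*} [Fintype ι] (k d : ℕ)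
    (A B : Fin k → ι → ℝ)
    (hA : ∀ i i', i ≠ i' → ∀ a, A i a = 0 ∨ A i' a = 0)
    (hB : ∀ j j', j ≠ j' → ∀ a, B j a = 0 ∨ B j' a = 0)
    (hA0 : ∀ i a, 0 ≤ A i a) (hB0 : ∀ j a, 0 ≤ B j a)
    (hAB : ∀ i j, ∃ a, 0 < A i a ∧ 0 < B j a)
    (σ : ℝ) (hσ : 0 < σ) {J : Type*} (F : J → ι → ℝ) (Y : J → Fin d → ℝ)
    (hY : ∀ j j', energy q (Y j - Y j') = σ * energy q (F j - F j'))
    (j0 : J) (jA jA' jB jB' : Fin k → J)
    (h0 : F j0 = 0) (hjA : ∀ i, F (jA i) = A i) (hjA' : ∀ i, F (jA' i) = -A i)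
    (hjB : ∀ i, F (jB i) = B i) (hjB' : ∀ i, F (jB' i) = -B i) :
    k ^ 2 ≤ d := by
  have hq0 : 0 < q := by linarith
  -- reflection: the image of `-f` is the reflection of the image of `f` in the image of the origin
  have refl : ∀ j j', F j' = -F j → Y j' - Y j0 = -(Y j - Y j0) := by
    intro j j' hjj'
    apply energy_reflect q hq1 (Y j - Y j0) (Y j' - Y j0) (σ * energy q (F j))
    · rw [hY, h0, sub_zero]
    · rw [hY, h0, sub_zero, hjj', energy_neg]
    · have : Y j - Y j0 - (Y j' - Y j0) = Y j - Y j' := by abel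
      rw [this, hY, hjj', energy_sub_neg]
      ring
  -- disjoint supports are preserved
  have disj : ∀ j1 j2 j2', F j2' = -F j2 → (∀ a, F j1 a = 0 ∨ F j2 a = 0) →
      ∀ t, (Y j1 - Y j0) t = 0 ∨ (Y j2 - Y j0) t = 0 := by
    intro j1 j2 j2' h2 hd
    apply disjoint_of_energy q hq1 hq2
    have e1 : Y j1 - Y j0 + (Y j2 - Y j0) = Y j1 - Y j2' := by
      have h := refl j2 j2' h2
      rw [show Y j2 - Y j0 = -(Y j2' - Y j0) by rw [h, neg_neg]]
      abel
    have e2 : Y j1 - Y j0 - (Y j2 - Y j0) = Y j1 - Y j2 := by abel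
    rw [e1, e2, hY, hY, hY, hY, h0, sub_zero, sub_zero, h2, sub_neg_eq_add,
      ← energy_add_eq_sub q _ _ hd, energy_add_of_disjoint q hq0 _ _ hd]
    ring
  -- each row image meets each column image
  have meet : ∀ i j, ∃ t, (Y (jA i) - Y j0) t ≠ 0 ∧ (Y (jB j) - Y j0) t ≠ 0 := by
    intro i j
    by_contra hcon
    push Not at hcon
    have hd : ∀ t, (Y (jA i) - Y j0) t = 0 ∨ (Y (jB j) - Y j0) t = 0 := by
      intro t
      by_cases h : (Y (jA i) - Y j0) t = 0
      · exact Or.inl h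
      · exact Or.inr (hcon t h)
    have h := energy_add_eq_sub q _ _ hd
    have e1 : Y (jA i) - Y j0 + (Y (jB j) - Y j0) = Y (jA i) - Y (jB' j) := by
      have h' := refl (jB j) (jB' j) (by rw [hjB', hjB])
      rw [show Y (jB j) - Y j0 = -(Y (jB' j) - Y j0) by rw [h', neg_neg]]
      abel
    have e2 : Y (jA i) - Y j0 - (Y (jB j) - Y j0) = Y (jA i) - Y (jB j) := by abel
    rw [e1, e2, hY, hY, hjA, hjB, hjB', sub_neg_eq_add] at h
    have hlt := energy_sub_lt_add q hq0 (A i) (B j) (hA0 i) (hB0 j) (hAB i j)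
    have := mul_left_cancel₀ hσ.ne' h
    linarith
  -- counting
  choose t ht using meet
  have hinj : Function.Injective (fun ij : Fin k × Fin k => t ij.1 ij.2) := by
    rintro ⟨i, j⟩ ⟨i', j'⟩ h
    simp only at h
    have hi : i = i' := by
      by_contra hne
      have h1 := disj (jA i) (jA i') (jA' i') (by rw [hjA', hjA])
        (by rw [hjA, hjA]; exact hA i i' hne) (t i j)
      rcases h1 with h1 | h1
      · exact (ht i j).1 h1
      · rw [h] at h1
        exact (ht i' j').1 h1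
    have hj : j = j' := by
      by_contra hne
      have h1 := disj (jB j) (jB j') (jB' j') (by rw [hjB', hjB])
        (by rw [hjB, hjB]; exact hB j j' hne) (t i j)
      rcases h1 with h1 | h1
      · exact (ht i j).2 h1
      · rw [h] at h1
        exact (ht i' j').2 h1
    rw [hi, hj]
  have hcard := Fintype.card_le_of_injective _ hinj
  simpa [sq] using hcard

end Crest.Agent.Helper64.S0359
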