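/-
helper64 — S0359 squad: the final assembly of the blueprint route (SPARE closure, not the graded file:
the graded `Crest/Agent/S0359.lean` is helper99's standalone proof).  Sorry-free; leaves by helper62
(Clarkson, Energy), helper41 (LpPlumbing), helper25 (Grid), helper64 (Reflect, Core).
-/
import Crest.Statements.S0359
import Crest.Agent.Helper64.S0359.Core
import Crest.Agent.Helper41.S0359.LpPlumbing
import Crest.Agent.Helper25.S0359.Grid

set_option autoImplicit false
open MeasureTheory
open scoped ENNReal
open Crest Crest.GeometryTopology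

namespace Crest.Agent.Helper64.S0359.Final
open Crest.Agent.Helper64.S0359 Crest.Agent.Helper62.S0359 Crest.Agent.Helper41.S0359
  Crest.Agent.Helper25.S0359

theorem result_spare
    (p : ℝ≥0∞) [Fact (1 ≤ p)] (hp1 : 1 < p) (hptop : p ≠ ⊤) (hp2 : p ≠ 2)
    (n : ℕ) (hn : 9 ≤ n) (d : ℕ)
    (hd : ∀ (α : Type) [MeasurableSpace α] (μ : Measure α) (x : Fin n → Lp ℝ p μ),
      Function.Injective x →
      ∃ (y : Fin n → PiLp p (fun _ : Fin d => ℝ)) (s : ℝ), 0 < s ∧
        ∀ i j, ‖y i - y j‖ = s * ‖x i - x j‖) :
    ((n - 1) / 4) ^ 2 ≤ d := by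
  set k := (n - 1) / 4 with hk
  have hk2 : 2 ≤ k := by omega
  have h4k : 4 * k + 1 ≤ n := by omega
  set r := n - (4 * k + 1) with hr
  have hp0 : p ≠ 0 := (lt_trans zero_lt_one hp1).ne'
  set q := p.toReal with hq
  have hq1 : 1 < q := by
    have := (ENNReal.toReal_lt_toReal ENNReal.one_ne_top hptop).2 hp1
    simpa using this
  have hq2 : q ≠ 2 := by
    intro h
    apply hp2
    have : p = ENNReal.ofReal q := (ENNReal.ofReal_toReal hptop).symm
    rw [this, h]; simp
  have hq0 : 0 < q := by linarith
  -- index equivalence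
  have hcard : Fintype.card ((Bool × Bool × Fin k) ⊕ Fin (r + 1)) = n := by
    simp only [Fintype.card_sum, Fintype.card_prod, Fintype.card_bool, Fintype.card_fin]
    omega
  let e : (Bool × Bool × Fin k) ⊕ Fin (r + 1) ≃ Fin n := Fintype.equivFinOfCardEq hcard
  let F : Fin n → (Fin k × Fin k → ℝ) := fun m => fam k r (e.symm m)
  have hF : Function.Injective F := (fam_injective k r hk2).comp e.symm.injective
  let x : Fin n → Lp ℝ p (Measure.count : Measure (Fin k × Fin k)) :=
    fun m => (memLp_count p (F m)).toLp (F m)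
  have hxsub : ∀ m m', ‖x m - x m'‖ ^ q = energy q (F m - F m') := by
    intro m m'
    have : x m - x m' =
        ((memLp_count p (F m)).sub (memLp_count p (F m'))).toLp (F m - F m') :=
      (MemLp.toLp_sub _ _).symm
    rw [this]
    exact norm_toLp_count_rpow p hp0 hptop _ _
  have hx : Function.Injective x := by
    intro m m' h
    apply hF
    apply eq_of_energy_sub_eq_zero q hq0
    rw [← hxsub, h, sub_self, norm_zero, Real.zero_rpow hq0.ne']
  obtain ⟨y, s, hs, hy⟩ := hd (Fin k × Fin k) Measure.count x hx
  refine core q hq1 hq2 k d (grid k false) (grid k true)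
    (fun i i' h a => grid_disjoint k false i i' h a)
    (fun i i' h a => grid_disjoint k true i i' h a)
    (grid_nonneg k false) (grid_nonneg k true) (grid_meet k)
    (s ^ q) (Real.rpow_pos_of_pos hs q) F (fun m t => y m t) ?_
    (e (Sum.inr 0)) (fun i => e (Sum.inl (false, false, i)))
    (fun i => e (Sum.inl (false, true, i))) (fun i => e (Sum.inl (true, false, i)))
    (fun i => e (Sum.inl (true, true, i))) ?_ ?_ ?_ ?_ ?_
  · intro j j'
    calc energy q ((fun t => y j t) - fun t => y j' t) = ‖y j - y j'‖ ^ q :=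
          (norm_piLp_sub_rpow p hp0 hptop d (y j) (y j')).symm
      _ = (s * ‖x j - x j'‖) ^ q := by rw [hy]
      _ = s ^ q * ‖x j - x j'‖ ^ q := Real.mul_rpow hs.le (norm_nonneg _)
      _ = s ^ q * energy q (F j - F j') := by rw [hxsub]
  · funext a
    simp [F, fam, pad]
  · intro i
    simp [F, fam, special]
  · intro i
    simp [F, fam, special]
  · intro i
    simp [F, fam, special]
  · intro i
    simp [F, fam, special]

end Crest.Agent.Helper64.S0359.Final

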